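import Vale.Agent.P223.H850.LinA
import Vale.Agent.P223.H850.W
import Vale.Agent.P223.X.Final

/-! Linear elliptic equations `K u - Δ u = f` on `M = X / Γ`. -/

set_option maxSynthPendingDepth 3
set_option linter.unusedSectionVars false

namespace Vale.Agent.P223.H850.LinB

open scoped ContDiff Topology
open MeasureTheory Vale.Agent.P223.H Vale.Agent.P223.X
open Vale.Agent.P272.K

section loc
variable {n : ℕ}

/-- evaluation -/
noncomputable def ev1 (k : Fin n) : (E n →L[ℝ] ℝ) →L[ℝ] ℝ :=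
  ContinuousLinearMap.apply ℝ ℝ (Pi.single k (1 : ℝ) : E n)

noncomputable def ev2 (i j : Fin n) : (E n →L[ℝ] E n →L[ℝ] ℝ) →L[ℝ] ℝ :=
  (ev1 j).comp (ContinuousLinearMap.apply ℝ (E n →L[ℝ] ℝ) (Pi.single i (1 : ℝ) : E n))

theorem ev1_apply (k : Fin n) (T : E n →L[ℝ] ℝ) : ev1 k T = T (Pi.single k 1) := rfl

theorem ev2_apply (i j : Fin n) (T : E n →L[ℝ] E n →L[ℝ] ℝ) :
    ev2 i j T = T (Pi.single i 1) (Pi.single j 1) := rfl

variable (G : E n → Matrix (Fin n) (Fin n) ℝ)

/-- second order coefficients of the Laplacian -/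
noncomputable def cA (y : E n) : (E n →L[ℝ] E n →L[ℝ] ℝ) →L[ℝ] ℝ :=
  ∑ i, ∑ j, (G y)⁻¹ i j • ev2 i j

/-- first order coefficients of the Laplacian -/
noncomputable def cB (y : E n) : (E n →L[ℝ] ℝ) →L[ℝ] ℝ :=
  ∑ i, ∑ j, ∑ k, (-((G y)⁻¹ i j * H.chr G y k i j)) • ev1 k

variable {G}

theorem lap_eq {f : E n → ℝ} {y : E n} (hf : ContDiffAt ℝ 2 f y) :
    lap G f y = cA G y (fderiv ℝ (fderiv ℝ f) y) + cB G y (fderiv ℝ f y) := by
  have h1 : ∀ i j, H.pd i (fun z => H.pd j f z) y =
      fderiv ℝ (fderiv ℝ f) y (Pi.single i 1) (Pi.single j 1) := by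
    intro i j
    have hd : DifferentiableAt ℝ (fderiv ℝ f) y :=
      (hf.fderiv_right (m := 1) (by norm_num)).differentiableAt (by simp)
    have h2 := hd.hasFDerivAt.clm_apply (hasFDerivAt_const (Pi.single j (1 : ℝ) : E n) y)
    unfold H.pd
    rw [h2.fderiv]
    simp
  unfold lap cA cB
  simp only [h1, _root_.sum_apply, smul_apply, ev2_apply, ev1_apply,
    smul_eq_mul]
  rw [← Finset.sum_add_distrib]
  refine Finset.sum_congr rfl fun i _ => ?_
  rw [← Finset.sum_add_distrib]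
  refine Finset.sum_congr rfl fun j _ => ?_
  rw [mul_sub, sub_eq_add_neg, Finset.mul_sum, ← Finset.sum_neg_distrib]
  congr 1
  refine Finset.sum_congr rfl fun k _ => ?_
  unfold H.pd
  ring

theorem cA_smooth (hs : ∀ i j, ContDiff ℝ ∞ (fun x => G x i j)) (hp : ∀ y, (G y).PosDef) :
    ContDiff ℝ ∞ (cA G) := by
  unfold cA
  exact ContDiff.sum fun i _ => ContDiff.sum fun j _ =>
    (B25c.cd_inv hs (fun x => (hp x).det_pos.ne') i j).smul contDiff_const

theorem cB_smooth (hs : ∀ i j, ContDiff ℝ ∞ (fun x => G x i j)) (hp : ∀ y, (G y).PosDef) :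
    ContDiff ℝ ∞ (cB G) := by
  unfold cB
  have h1 : ∀ k i j, ContDiff ℝ ∞ (fun x => H.chr G x k i j) := fun k i j =>
    B25c.cd_at (f := fun t x => H.chr ((fun _ : ℝ => G) t) x k i j)
      (B25c.cd_chr (G := fun _ : ℝ => G) (fun i j => (hs i j).comp contDiff_snd)
        (fun _ => hp) k i j) 0
  exact ContDiff.sum fun i _ => ContDiff.sum fun j _ => ContDiff.sum fun k _ =>
    (((B25c.cd_inv hs (fun x => (hp x).det_pos.ne') i j).mul (h1 k i j)).neg).smul contDiff_const

theorem cA_pos {y : E n} (hp : (G y).PosDef) {ξ : E n →L[ℝ] ℝ} (hξ : ξ ≠ 0) :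
    0 < cA G y (ξ.smulRight ξ) := by
  set v : E n := fun i => ξ (Pi.single i 1) with hv
  have hv0 : v ≠ 0 := by
    intro h
    refine hξ (ContinuousLinearMap.ext fun x => ?_)
    have h1 : x = ∑ i, x i • (Pi.single i (1 : ℝ) : E n) := by
      funext k
      simp [Finset.sum_apply, Pi.single_apply]
    rw [h1, map_sum]
    simp only [map_smul, _root_.zero_apply]
    refine Finset.sum_eq_zero fun i _ => ?_
    rw [show ξ (Pi.single i 1) = v i from rfl, h]
    simp
  have h2 := hp.inv.dotProduct_mulVec_pos hv0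
  rw [star_trivial] at h2
  refine lt_of_lt_of_eq h2 ?_
  unfold cA dotProduct Matrix.mulVec dotProduct
  simp only [_root_.sum_apply, smul_apply, ev2_apply,
    ContinuousLinearMap.smulRight_apply, smul_eq_mul, Finset.mul_sum]
  refine Finset.sum_congr rfl fun i _ => Finset.sum_congr rfl fun j _ => ?_
  rw [hv]
  ring

end loc

variable {n : ℕ} {M X Γ I : Type} [TopologicalSpace M] [TopologicalSpace X] [Group Γ]
    [MulAction Γ X] (C : Vale.Agent.P223.X.Cov n M X Γ I)

/-- the charts of `M` -/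
noncomputable def ch (i : I) : OpenPartialHomeomorph M (E n) :=
  ((Final.emb_π C i).toOpenPartialHomeomorph (fun y : E n => C.π (C.ψ i y))).symm

theorem ch_symm (i : I) (y : E n) : (ch C i).symm y = C.π (C.ψ i y) := rfl

theorem ch_π (i : I) (y : E n) : ch C i (C.π (C.ψ i y)) = y :=
  (ch C i).right_inv (x := y) (by
    show y ∈ ((Final.emb_π C i).toOpenPartialHomeomorph _).source
    simp)

theorem ch_target (i : I) : (ch C i).target = Set.univ := by
  show ((Final.emb_π C i).toOpenPartialHomeomorph _).source = Set.univ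
  simp

theorem ch_source (i : I) : (ch C i).source = Set.range fun y => C.π (C.ψ i y) := by
  show ((Final.emb_π C i).toOpenPartialHomeomorph _).target = _
  simp

/-- `M` is a charted space. -/
@[reducible] noncomputable def cs : ChartedSpace (E n) M where
  atlas := Set.range (ch C)
  chartAt m := ch C (Final.exists_chartM C m).choose
  mem_chart_source m := by
    rw [ch_source]
    exact ⟨_, (Final.exists_chartM C m).choose_spec.choose_spec⟩
  chart_mem_atlas m := ⟨_, rfl⟩

theorem rsm : letI := cs C; LIN.RSm (E n) M := by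
  letI := cs C
  refine ⟨?_⟩
  rintro _ ⟨i, rfl⟩ _ ⟨j, rfl⟩ x hx hx'
  rw [ch_source] at hx hx'
  obtain ⟨y, rfl⟩ := hx
  obtain ⟨y', hy'⟩ := hx'
  simp only at hy' ⊢
  rw [ch_π]
  obtain ⟨γ, hγ⟩ := (C.orb _ _).1 hy'.symm
  obtain ⟨hd, -⟩ := mem_dom C hγ
  refine (contDiffAt_tr C hd).congr_of_eventuallyEq ?_
  filter_upwards [(isOpen_dom C i j γ).mem_nhds hd] with z hz
  rw [ch_symm]
  have h1 : C.π (C.ψ i z) = C.π (C.ψ j (C.tr i j γ z)) := by
    rw [tr_spec C hz]
    exact (C.orb _ _).2 ⟨γ, rfl⟩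
  rw [h1, ch_π]

/-- `K u - Δ u = f` is solvable. -/
theorem specLin [Finite I] [T2Space M] {G : I → E n → Matrix (Fin n) (Fin n) ℝ} (hG : MetX C G)
    {K : ℝ} (hK : 0 < K) {f : X → ℝ} (hf : C.Ck 1 f) (hfi : ∀ (γ : Γ) x, f (γ • x) = f x) :
    ∃ u : X → ℝ, C.Ck 2 u ∧ (∀ (γ : Γ) x, u (γ • x) = u x) ∧
      ∀ x, K * u x - lapX C G u x = f x := by
  classical
  letI := cs C
  haveI := rsm C
  haveI : CompactSpace M := compactSpace_M C
  have hidx : ∀ e ∈ atlas (E n) M, ∃ i, ch C i = e := fun e he => he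
  -- lifts of functions
  have hlift : ∀ v : M → ℝ, LIN.CkFn (E n) 2 v → C.Ck 2 (fun x => v (C.π x)) := by
    intro v hv γ i
    rw [contDiff_iff_contDiffAt]
    intro y
    have h1 := hv (ch C i) ⟨i, rfl⟩ (C.π (C.ψ i y)) (by rw [ch_source]; exact ⟨y, rfl⟩)
    rw [ch_π] at h1
    refine h1.congr_of_eventuallyEq (Filter.Eventually.of_forall fun z => ?_)
    show v (C.π (γ • C.ψ i z)) = v ((ch C i).symm z)
    rw [ch_symm, (C.orb (C.ψ i z) (γ • C.ψ i z)).2 ⟨γ, rfl⟩]
  have hrep : ∀ (v : M → ℝ) i, C.rep (fun x => v (C.π x)) 1 i = fun y => v ((ch C i).symm y) := by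
    intro v i
    funext z
    show v (C.π ((1 : Γ) • C.ψ i z)) = _
    rw [one_smul, ch_symm]
  have hinv : ∀ (v : M → ℝ) (γ : Γ) (x : X), v (C.π (γ • x)) = v (C.π x) := fun v γ x => by
    rw [(C.orb x (γ • x)).2 ⟨γ, rfl⟩]
  have hlinv : ∀ v : M → ℝ, LIN.CkFn (E n) 2 v → ∀ (γ : Γ) x,
      lapX C G (fun x => v (C.π x)) (γ • x) = lapX C G (fun x => v (C.π x)) x := by
    intro v hv γ x
    have h1 := Vale.Agent.P223.X.lapX_smul hG (hlift v hv) γ x
    rw [show (fun z => v (C.π (γ • z))) = fun z => v (C.π z) from funext fun z => hinv v γ z] at h1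
    exact h1.symm
  obtain ⟨u, hu, hu'⟩ := LinA.exists_solution (E := E n) (Y := M)
    (fun e => if h : ∃ i, ch C i = e then cA (G h.choose) else 0)
    (fun e => if h : ∃ i, ch C i = e then cB (G h.choose) else 0)
    (fun e he y _ => by
      simp only [dif_pos (hidx e he)]
      exact (cA_smooth (hG.smooth _) (hG.pos _)).contDiffAt)
    (fun e he y _ => by
      simp only [dif_pos (hidx e he)]
      exact (cB_smooth (hG.smooth _) (hG.pos _)).contDiffAt)
    (fun e he y _ ξ hξ => by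
      simp only [dif_pos (hidx e he)]
      exact cA_pos (hG.pos _ y) hξ)
    (fun v m => C.dn (lapX C G fun x => v (C.π x)) m)
    (fun v hv e he m hm => by
      simp only [dif_pos (hidx e he)]
      obtain ⟨i, hi⟩ : ∃ i, i = (hidx e he).choose := ⟨_, rfl⟩
      have hie : ch C i = e := by rw [hi]; exact (hidx e he).choose_spec
      rw [← hi]
      subst hie
      rw [ch_source] at hm
      obtain ⟨y, rfl⟩ := hm
      simp only
      rw [Final.dn_eq C (hlinv v hv), ch_π]
      have h1 := Vale.Agent.P223.X.lapX_eq hG (hlift v hv) 1 i y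
      rw [one_smul] at h1
      rw [h1, hrep]
      have h2 : ContDiff ℝ 2 (fun y => v ((ch C i).symm y)) := by
        rw [← hrep]; exact hlift v hv 1 i
      exact lap_eq h2.contDiffAt)
    (C.dn f) (by
      rintro _ ⟨i, rfl⟩ m hm
      rw [ch_source] at hm
      obtain ⟨y, rfl⟩ := hm
      simp only
      rw [ch_π]
      have h1 : (fun y => C.dn f ((ch C i).symm y)) = C.rep f 1 i := by
        funext z
        rw [ch_symm, Final.dn_eq C hfi]
        unfold Cov.rep
        rw [one_smul]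
      rw [h1]
      exact (hf 1 i).contDiffAt) K hK
  refine ⟨fun x => u (C.π x), hlift u hu, fun γ x => hinv u γ x, fun x => ?_⟩
  have h1 := hu' (C.π x)
  rw [Final.dn_eq C (hlinv u hu), Final.dn_eq C hfi] at h1
  exact h1

end Vale.Agent.P223.H850.LinB
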