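import Vale.Agent.P223.H850.CfC
import Vale.Agent.P223.H850.LinB
import Vale.Agent.P223.H191.Iter3

/-! Block B10. -/

namespace Vale.Agent.P223.H850

open scoped ContDiff Topology ENNReal
open MeasureTheory Vale.Agent.P223.H Vale.Agent.P223.X

theorem cd_scal {n : ℕ} {G : E n → Matrix (Fin n) (Fin n) ℝ}
    (hs : ∀ i j, ContDiff ℝ ∞ (fun x => G x i j)) (hp : ∀ x, (G x).PosDef) :
    ContDiff ℝ ∞ (Vale.Agent.P223.H.scal G) :=
  B25c.cd_at (f := fun _ x => Vale.Agent.P223.H.scal G x)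
    (B25c.cd_scal (G := fun _ : ℝ => G) (fun i j => (hs i j).comp contDiff_snd) (fun _ => hp)) 0

theorem specIter : SpecIter := by
  intro n M X Γ I _ _ _ _ _ _ _ _ _ _ C G ν δ hn hG hV hδ
  set S : X → ℝ := C.gl fun _ i y => Vale.Agent.P223.H.scal (G i) y with hS
  have hSi : ∀ (γ : Γ) x, S (γ • x) = S x := ConfX.gl_scal_inv hG
  have hSk : C.Ck 1 S := fun γ i => by
    have h1 : C.rep S γ i = fun y => Vale.Agent.P223.H.scal (G i) y :=
      funext fun y => ConfX.gl_scal hG γ i y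
    rw [h1]
    exact contDiff_infty.1 (cd_scal (hG.smooth i) (hG.pos i)) 1
  obtain ⟨φ, δ', h1, h2, h3, h4, h5, h6⟩ := Vale.Agent.P223.H191.iter_strict hn hG hV hSk hSi
    (fun κ hκ f hf hfi => LinB.specLin C hG hκ hf hfi) hδ
  refine ⟨φ, h1, h2, fun x => h3.trans_le (h4 x), fun x => ?_, h6⟩
  have h7 : scM C G (C.π x) = S x := IntM.dn_eq C hSi x
  rw [h7]
  exact h3.le.trans (h5 x)

/-- BLOCK B10 -/
theorem specCf' : Vale.Agent.P223.H66.SpecCf := specCf specIter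

end Vale.Agent.P223.H850
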