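import Vale.Agent.P272.K.LIN.DescIn
import Vale.Agent.P272.K.LIN.Patch

/-! Linear elliptic equations on closed manifolds, from the Schauder theory of P272. -/

open scoped NNReal Topology ContDiff
open Filter Set Metric

set_option maxSynthPendingDepth 3
set_option linter.unusedSectionVars false

noncomputable section

namespace Vale.Agent.P223.H850.LinA

open Vale.Agent.P272.K.LIN

variable {E : Type*} [NormedAddCommGroup E] [NormedSpace ℝ E]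

/-- smooth functions are Hölder continuous on balls -/
theorem holder_ball {W : Type*} [NormedAddCommGroup W] [NormedSpace ℝ W] [FiniteDimensional ℝ E]
    {U : Set E} (hU : IsOpen U) {a : E → W} (ha : ∀ y ∈ U, ContDiffAt ℝ ∞ a y) {c : E} {r : ℝ}
    (hr : 0 < r) (hs : closedBall c r ⊆ U) {α : ℝ} (h0 : 0 < α) (h1 : α ≤ 1) :
    ∃ K, ∀ y ∈ ball c r, ∀ y' ∈ ball c r, ‖a y - a y'‖ ≤ K * ‖y - y'‖ ^ α := by
  have h2 : ContDiffOn ℝ 1 a U := fun y hy =>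
    ((ha y hy).of_le (by exact_mod_cast le_top)).contDiffWithinAt
  have h3 : ContinuousOn (fderiv ℝ a) U := h2.continuousOn_fderiv_of_isOpen hU le_rfl
  obtain ⟨K, hK⟩ := (isCompact_closedBall c r).exists_bound_of_continuousOn (h3.mono hs)
  have hK0 : 0 ≤ K := (norm_nonneg _).trans (hK c (mem_closedBall_self hr.le))
  refine ⟨K * (2 * r) ^ (1 - α), fun y hy y' hy' => ?_⟩
  have h4 : ‖a y - a y'‖ ≤ K * ‖y - y'‖ :=
    (convex_closedBall c r).norm_image_sub_le_of_norm_fderiv_le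
      (fun z hz => (ha z (hs hz)).differentiableAt (by simp)) (fun z hz => hK z hz)
      (ball_subset_closedBall hy') (ball_subset_closedBall hy)
  refine h4.trans ?_
  rw [mul_assoc]
  refine mul_le_mul_of_nonneg_left ?_ hK0
  have h5 : ‖y - y'‖ ≤ 2 * r := by
    rw [mem_ball, dist_eq_norm] at hy hy'
    calc ‖y - y'‖ = ‖(y - c) - (y' - c)‖ := by congr 1; abel
      _ ≤ ‖y - c‖ + ‖y' - c‖ := norm_sub_le _ _
      _ ≤ 2 * r := by linarith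
  rcases (norm_nonneg (y - y')).eq_or_lt with h | h
  · rw [← h, Real.zero_rpow h0.ne', mul_zero]
  · calc ‖y - y'‖ = ‖y - y'‖ ^ (1 - α) * ‖y - y'‖ ^ α := by
          rw [← Real.rpow_add h]; simp
      _ ≤ (2 * r) ^ (1 - α) * ‖y - y'‖ ^ α := by gcongr

variable [FiniteDimensional ℝ E] {Y : Type*} [TopologicalSpace Y] [ChartedSpace E Y]
  [T2Space Y] [CompactSpace Y] [RSm E Y]

/-- the coefficients as functionals on jets -/
def cf (A : E → (E →L[ℝ] E →L[ℝ] ℝ) →L[ℝ] ℝ) (B : E → (E →L[ℝ] ℝ) →L[ℝ] ℝ) (y : E) :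
    Jet E →L[ℝ] ℝ :=
  (A y).comp ((ContinuousLinearMap.snd ℝ _ _).comp (ContinuousLinearMap.snd ℝ _ _)) +
    (B y).comp ((ContinuousLinearMap.fst ℝ _ _).comp (ContinuousLinearMap.snd ℝ _ _))

theorem cf_apply (A : E → (E →L[ℝ] E →L[ℝ] ℝ) →L[ℝ] ℝ) (B : E → (E →L[ℝ] ℝ) →L[ℝ] ℝ) (y : E)
    (j : Jet E) : cf A B y j = A y j.2.2 + B y j.2.1 := rfl

theorem cf_smooth {A : E → (E →L[ℝ] E →L[ℝ] ℝ) →L[ℝ] ℝ} {B : E → (E →L[ℝ] ℝ) →L[ℝ] ℝ} {y : E}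
    (hA : ContDiffAt ℝ ∞ A y) (hB : ContDiffAt ℝ ∞ B y) : ContDiffAt ℝ ∞ (cf A B) y :=
  (hA.clm_comp contDiffAt_const).add (hB.clm_comp contDiffAt_const)

/-- **Linear equations are solvable.** -/
theorem exists_solution
    (A : OpenPartialHomeomorph Y E → E → (E →L[ℝ] E →L[ℝ] ℝ) →L[ℝ] ℝ)
    (B : OpenPartialHomeomorph Y E → E → (E →L[ℝ] ℝ) →L[ℝ] ℝ)
    (hA : ∀ e ∈ atlas E Y, ∀ y ∈ e.target, ContDiffAt ℝ ∞ (A e) y)
    (hB : ∀ e ∈ atlas E Y, ∀ y ∈ e.target, ContDiffAt ℝ ∞ (B e) y)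
    (hpos : ∀ e ∈ atlas E Y, ∀ y ∈ e.target, ∀ ξ : E →L[ℝ] ℝ, ξ ≠ 0 →
      0 < A e y (ξ.smulRight ξ))
    (Lf : (Y → ℝ) → Y → ℝ)
    (hL : ∀ v, CkFn E 2 v → ∀ e ∈ atlas E Y, ∀ x ∈ e.source, Lf v x =
      A e (e x) (fderiv ℝ (fderiv ℝ (fun y => v (e.symm y))) (e x)) +
        B e (e x) (fderiv ℝ (fun y => v (e.symm y)) (e x)))
    (f : Y → ℝ) (hf : CkFn E 1 f) (l : ℝ) (hl : 0 < l) :
    ∃ u : Y → ℝ, CkFn E 2 u ∧ ∀ x, l * u x - Lf u x = f x := by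
  obtain ⟨𝒞⟩ := Cov.nonempty E Y
  have h0 : (0 : ℝ) < 1 / 2 := by norm_num
  have h1 : (1 / 2 : ℝ) < 1 := by norm_num
  -- the normalisation
  set s : Y → ℝ := fun x => ∑ i, 𝒞.η i x * 𝒞.η i x with hs
  have hspos : ∀ x, 0 < s x := by
    intro x
    obtain ⟨i, hx, hxi⟩ := 𝒞.cover x
    have hr := 𝒞.r_pos i
    have h2 : 𝒞.η i x = 1 := 𝒞.η_eq_one hx
      (ball_subset_closedBall (ball_subset_ball (by linarith) hxi))
    refine lt_of_lt_of_le (by rw [h2]; norm_num : 0 < 𝒞.η i x * 𝒞.η i x) ?_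
    exact Finset.single_le_sum (f := fun i => 𝒞.η i x * 𝒞.η i x)
      (fun i _ => mul_self_nonneg _) (Finset.mem_univ i)
  have hsck : CkFn E ∞ s := CkFn.sum fun i _ => (𝒞.η_ck i).mul (𝒞.η_ck i)
  have hcoef : ∀ i, CkFn E 1 fun x => (1 / s x) • (𝒞.η i x • cf (A (𝒞.e i)) (B (𝒞.e i)) (𝒞.e i x)) := by
    intro i
    refine CkFn.smul (f := fun x => 1 / s x) (g := fun x =>
      𝒞.η i x • cf (A (𝒞.e i)) (B (𝒞.e i)) (𝒞.e i x)) ?_ ?_
    · exact ((ckFn_const (X := Y) (1 : ℝ)).div hsck fun x => (hspos x).ne').of_le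
        (by exact_mod_cast le_top)
    · exact (𝒞.η_smul_ck i (k := ∞) le_rfl fun y hy => cf_smooth (hA _ (𝒞.mem i) y hy)
        (hB _ (𝒞.mem i) y hy)).of_le (by exact_mod_cast le_top)
  let L : 𝒞.C2 (1 / 2) →L[ℝ] Hol (𝒞.w (1 / 2)) ℝ := ∑ i,
    (Hol.bilL (ContinuousLinearMap.id ℝ (Jet E →L[ℝ] ℝ))
      (𝒞.ofCk h0 h1.le _ (hcoef i))).comp (𝒞.J (1 / 2) i)
  have hLv : ∀ (v : 𝒞.C2 (1 / 2)) x, L v x = Lf (𝒞.fn v) x := by
    intro v x
    have h2 : L v x = ∑ i, (1 / s x) * (𝒞.η i x * 𝒞.η i x) * Lf (𝒞.fn v) x := by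
      simp only [L, _root_.sum_apply, Hol.sum_apply]
      refine Finset.sum_congr rfl fun i _ => ?_
      show ((1 / s x) • (𝒞.η i x • cf (A (𝒞.e i)) (B (𝒞.e i)) (𝒞.e i x))) (𝒞.J (1 / 2) i v x) = _
      rw [𝒞.J_apply, Cov.Jf]
      by_cases hη : 𝒞.η i x = 0
      · rw [hη]; simp
      · have hx := (𝒞.η_ne_zero hη).1
        rw [hL _ (𝒞.fn_ck v) _ (𝒞.mem i) x hx, map_smul, ContinuousLinearMap.smul_apply,
          ContinuousLinearMap.smul_apply, cf_apply]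
        simp only [jet, smul_eq_mul]
        ring
    rw [h2, ← Finset.sum_mul, ← Finset.mul_sum]
    rw [show ∑ i, 𝒞.η i x * 𝒞.η i x = s x from rfl, one_div, inv_mul_cancel₀ (hspos x).ne', one_mul]
  have hEll : Cov.Ell 𝒞 (1 / 2) L (fun i => A (𝒞.e i)) (fun i => B (𝒞.e i)) := by
    have hsub : ∀ i, closedBall (𝒞.c i) (2 * 𝒞.r i) ⊆ (𝒞.e i).target := fun i =>
      (closedBall_subset_closedBall (by have := 𝒞.r_pos i; linarith)).trans (𝒞.sub i)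
    refine ⟨fun i => ?_, fun i => ?_, fun i y hy ξ hξ => ?_, fun v i x hx _ => ?_⟩
    · exact holder_ball (𝒞.e i).open_target (hA _ (𝒞.mem i)) (by have := 𝒞.r_pos i; positivity)
        (hsub i) h0 h1.le
    · exact holder_ball (𝒞.e i).open_target (hB _ (𝒞.mem i)) (by have := 𝒞.r_pos i; positivity)
        (hsub i) h0 h1.le
    · exact hpos _ (𝒞.mem i) y (hsub i (ball_subset_closedBall hy)) ξ hξ
    · rw [hLv]
      exact hL _ (𝒞.fn_ck v) _ (𝒞.mem i) x hx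
  obtain ⟨Λ, hΛ, hsurj⟩ := 𝒞.surj_large h0 h1 hEll
  obtain ⟨v, hv⟩ := (hEll.bijective h0 h1 Λ (by linarith) (hsurj Λ le_rfl) l hl).2
    (𝒞.ofCk h0 h1.le f hf)
  refine ⟨𝒞.fn v, 𝒞.fn_ck v, fun x => ?_⟩
  have h2 := congrArg (fun g : Hol (𝒞.w (1 / 2)) ℝ => g x) hv
  have h3 : l * 𝒞.fn v x - L v x = f x := h2
  rw [hLv] at h3
  exact h3

end Vale.Agent.P223.H850.LinA
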